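import Vale.Agent.P014T.St
import Vale.Agent.P014T.Cp.Nn

/-! # P014T, block Rx: the calculus of the reciprocity laws at two -/

set_option autoImplicit false
set_option linter.all false

open NumberField
open scoped Classical

noncomputable section

namespace Vale.Agent.P014T.Rx

open Vale.Agent.P022 (Qb GQ)
open Vale.Agent.P022D.W (dec)
open Vale.Agent.P022E.GW (Ov)
open Vale.Agent.P004S.Ga (K O mem_O)
open Vale.Agent.P004S.Aq
open Vale.Agent.P004F (hq)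
open Vale.Agent.P004F.Rc (hn hn_mul mq mq_eq mq_zero O_nat)
open Vale.Agent.P004M.TE (Pt ga)
open Top (El Rc sI)
open Wm (Fx)
open Bt (dd Zl Km)
open Cp (pr ivP Zn cp)
open Lc (Lk Wq)
open Ah (Ind am)
open Ba (Tp)

variable {A B : ℤ} {h : El A B} {P : Ideal (𝓞 Qb)} {lg : Fx A B (dec P) →+ K} {m n : ℕ}
  {z z' : GQ → Pt A B} {μ μ' : K} {ι : Qb →+* ℂ_[2]}

theorem md (A B : ℤ) : Sm.Md (Wq (sI A B)) A B 1 0 0 0 := by
  refine ⟨one_ne_zero, ?_, ?_, ?_, ?_, ?_⟩ <;> simp [sI]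

theorem sI_ne (h : El A B) : (sI A B).Δ ≠ 0 := fun e => h (by
  simp only [sI, WeierstrassCurve.Δ, WeierstrassCurve.b₂, WeierstrassCurve.b₄, WeierstrassCurve.b₆,
    WeierstrassCurve.b₈] at e
  linarith)

theorem mq_nat (k : ℕ) (u : K) : mq (k * u) = k • mq u := by rw [← map_nsmul, nsmul_eq_mul]

theorem mq_int (k : ℤ) (u : K) : mq (k * u) = k • mq u := by rw [← map_zsmul, zsmul_eq_mul]

theorem n2 : ‖(2 : K)‖ = 2⁻¹ := by simpa using Padic.norm_p (p := 2)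

theorem ex_pow (x : K) : ∃ j : ℕ, 2 ^ j * x ∈ O := by
  obtain ⟨j, e⟩ := pow_unbounded_of_one_lt ‖x‖ (one_lt_two (α := ℝ))
  refine ⟨j, mem_O.2 ?_⟩
  rw [norm_mul, norm_pow, n2, inv_pow, inv_mul_le_iff₀ (by positivity), mul_one]
  exact e.le

theorem O_pow (j : ℕ) : (2 : K) ^ j ∈ O := by exact_mod_cast O_nat (2 ^ j)

theorem ex_nat (u : ℤ_[2]) (j : ℕ) : ∃ (a : ℕ) (b : ℤ_[2]), (u : K) = a + 2 ^ j * b := by
  obtain ⟨y, hy⟩ := Ideal.mem_span_singleton.1 (PadicInt.appr_spec j u)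
  refine ⟨u.appr j, y, ?_⟩
  have := congrArg PadicInt.Coe.ringHom (sub_eq_iff_eq_add'.1 hy)
  simp only [map_add, map_mul, map_pow, map_natCast] at this
  exact_mod_cast this

theorem Zn.zsmul {D : Subgroup GQ} (q : Zn D n z) (k : ℤ) : Zn D n (k • z) :=
  .of (zsmul_mem q.mem k) fun g a => by rw [Pi.smul_apply, smul_comm, q.tr g a, zsmul_zero]

theorem Zn.nsmul {D : Subgroup GQ} (q : Zn D n z) (k : ℕ) : Zn D n (k • z) :=
  natCast_zsmul z k ▸ Zn.zsmul q k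

/-- the law in terms of the local pairing -/
theorem rc_iff (o : Ov 2 P) (q : Zn (dec P) n z) : Rc h P lg m n z μ ↔
    ∀ y, pr (Ki.pr (hq h)) (ivP o) (2 ^ m • y) ⟨z, q.mem⟩ = mq (lg (2 ^ m • y) * μ / 2 ^ n) :=
  ⟨fun r y => by
    obtain ⟨y', e⟩ := (Ki.pr (hq h)).dvp n (2 ^ m • y.1)
    rw [Cp.pr_eq _ _ _ _ e q, r y y' e],
  fun r y y' e => by rw [← r y, Cp.pr_eq _ _ _ _ e q]⟩

section

variable (o : Ov 2 P) (q : Zn (dec P) n z) (r : Rc h P lg m n z μ)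
include o q r

theorem rc_add (q' : Zn (dec P) n z') (r' : Rc h P lg m n z' μ') :
    Rc h P lg m n (z + z') (μ + μ') := (rc_iff o (q.add q')).2 fun y => by
  rw [mul_add, add_div, map_add, ← (rc_iff o q).1 r y, ← (rc_iff o q').1 r' y, ← map_add]
  rfl

theorem rc_zsmul (k : ℤ) : Rc h P lg m n (k • z) (k * μ) := (rc_iff o (Zn.zsmul q k)).2 fun y => by
  rw [mul_left_comm, mul_div_assoc, mq_int, ← (rc_iff o q).1 r y, ← map_zsmul]
  rfl

theorem rc_nsmul (k : ℕ) : Rc h P lg m n (k • z) (k * μ) := by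
  simpa only [natCast_zsmul, Int.cast_natCast] using rc_zsmul o q r k

theorem rc_neg : Rc h P lg m n (-z) (-μ) := by simpa using rc_zsmul o q r (-1)

theorem rc_sub (q' : Zn (dec P) n z') (r' : Rc h P lg m n z' μ') :
    Rc h P lg m n (z - z') (μ - μ') := by
  simpa only [sub_eq_add_neg] using rc_add o q r q'.neg (rc_neg o q' r')

/-- the law only sees the class on the decomposition group modulo the Kummer classes -/
theorem rc_km (q' : Zn (dec P) n z') {t : Pt A B} (e : ∀ g ∈ dec P, z' g - z g = ga g t - t) :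
    Rc h P lg m n z' μ := (rc_iff o q').2 fun y => by
  rw [← (rc_iff o q).1 r y, ← sub_eq_zero, ← map_sub]
  exact Cp.pr_km (hq h) o _ _ _ ⟨t, e⟩

theorem rc_congr (q' : Zn (dec P) n z') (e : ∀ g ∈ dec P, z' g = z g) : Rc h P lg m n z' μ :=
  rc_km o q r q' (t := 0) fun g a => by rw [e g a, sub_self, map_zero, sub_self]

/-- a higher level -/
theorem rc_up (c : ℕ) : Rc h P lg m (n + c) z (2 ^ c * μ) := (rc_iff o (q.up c)).2 fun y => by
  rw [(rc_iff o q).1 r y, pow_add]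
  congr 1
  field_simp

omit o q in
theorem rc_mono {m' : ℕ} (e : m ≤ m') : Rc h P lg m' n z μ := fun y y' k => by
  obtain ⟨c, rfl⟩ := Nat.exists_eq_add_of_le e
  rw [pow_add, mul_smul] at k ⊢
  exact r _ y' k

omit o q in
theorem rc_near (e : ∀ y, lg (2 ^ m • y) * (μ - μ') / 2 ^ n ∈ O) : Rc h P lg m n z μ' :=
  fun y y' k => (r y y' k).trans (mq_eq.2 (O_of (e y) (by ring)))

omit o q in
theorem rc_uniq (r' : Rc h P lg m n z μ') (y : Fx A B (dec P)) :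
    lg (2 ^ m • y) * (μ - μ') / 2 ^ n ∈ O := by
  obtain ⟨y', e⟩ := (Ki.pr (hq h)).dvp n (2 ^ m • y.1)
  exact O_of (mq_eq.1 ((r y y' e).symm.trans (r' y y' e))) (by ring)

end

theorem Zn.down {D : Subgroup GQ} {c : ℕ} (q : Zn D (n + c) z) : Zn D n (2 ^ c • z) :=
  .of (nsmul_mem q.mem _) fun g a => by rw [Pi.smul_apply, ← mul_smul, ← pow_add, q.tr g a]

/-- a lower level -/
theorem rc_down (o : Ov 2 P) {c : ℕ} (q : Zn (dec P) (n + c) z) (r : Rc h P lg m (n + c) z μ) :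
    Rc h P lg m n (2 ^ c • z) μ := (rc_iff o (Zn.down q)).2 fun y => by
  rw [(rc_iff o (Zn.nsmul q _)).1 (rc_nsmul o q r (2 ^ c)) y, pow_add]
  congr 1
  push_cast
  field_simp

theorem rc_zero (o : Ov 2 P) (q : Zn (dec P) n z) (e : z ∈ Km A B (dec P)) : Rc h P lg m n z 0 :=
  (rc_iff o q).2 fun y => by rw [Cp.pr_km (hq h) o _ _ _ e, mul_zero, zero_div, map_zero]

section

variable (h) (hι : Ind ι P) (k : Lk ι lg)
include h hι k

/-- the logarithm is bounded, and small points are divisible up to bounded torsion -/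
theorem loc : ∃ (τ : ℕ) (b : ℝ), 0 < b ∧ (∀ y, ‖lg y‖ ≤ b) ∧
    ∀ (j : ℕ) w, ‖lg w‖ * 2 ^ j ≤ b → ∃ w', 2 ^ τ • w = 2 ^ j • w' := by
  obtain ⟨l, y, a, k0, y0, b, c, -⟩ := Lc.two (sI_ne h) (md A B) hι
  obtain rfl := k.uniq a
  obtain ⟨τ, t⟩ := Cp.ft (hq h) hι.ov
  have p := norm_pos_iff.2 y0
  have f : ∀ (j : ℕ) w, ‖lg w‖ * 2 ^ j ≤ ‖lg y‖ → ∃ t ∈ Tp (Fx A B (dec P)), ∃ w', w = t + 2 ^ j • w' :=
    fun j => by
      induction j with
      | zero => exact fun w _ => ⟨0, zero_mem _, w, by simp⟩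
      | succ j ih =>
        intro w e
        have : (1 : ℝ) ≤ 2 ^ j := one_le_pow₀ one_le_two
        obtain ⟨s, ⟨i, hs⟩, w, rfl⟩ := c w (by rw [pow_succ] at e; nlinarith [norm_nonneg (lg w)])
        have s0 : lg s = 0 := by
          simpa using congrArg lg hs
        obtain ⟨s', hs', w, rfl⟩ := ih w (by
          rw [map_add, s0, zero_add, map_nsmul, nsmul_eq_mul, norm_mul, Nat.cast_ofNat, n2,
            pow_succ] at e
          linarith)
        exact ⟨s + 2 • s', add_mem ⟨i, hs⟩ (nsmul_mem hs' 2), w, by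
          rw [pow_succ', mul_smul, smul_add, add_assoc]⟩
  refine ⟨τ, _, p, b, fun j w e => ?_⟩
  obtain ⟨s, ⟨i, hs⟩, w, rfl⟩ := f j w e
  exact ⟨2 ^ τ • w, by
    rw [smul_add, smul_comm, show 2 ^ τ • s = 0 from
      Subtype.ext (t _ s.2 ⟨i, congrArg Subtype.val hs⟩), zero_add]⟩

theorem lg_int : ∃ m, ∀ m' y, m ≤ m' → lg (2 ^ m' • y) ∈ O := by
  obtain ⟨-, b, -, e, -⟩ := loc h hι k
  obtain ⟨j, f⟩ := pow_unbounded_of_one_lt b (one_lt_two (α := ℝ))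
  refine ⟨j, fun m' y a => mem_O.2 ?_⟩
  rw [map_nsmul, nsmul_eq_mul, norm_mul, Nat.cast_pow, norm_pow, Nat.cast_ofNat, n2, inv_pow,
    inv_mul_le_iff₀ (by positivity), mul_one]
  exact (e y).trans (f.le.trans (pow_le_pow_right₀ one_le_two a))

/-- **from one point to all points** -/
theorem one {R : Fx A B (dec P)} (R0 : lg R ≠ 0) : ∃ m, ∀ (n c : ℕ) z μ R', Zn (dec P) n z →
    2 ^ n • R' = R.1 → c • Iv.iv P (cp (Ki.wp (hq h)) n (dd A B R') z) = mq (hn n * lg R * μ) →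
    Rc h P lg m n (c • z) μ := by
  obtain ⟨τ, b, b0, b1, b2⟩ := loc h hι k
  have o := hι.ov
  have p := norm_pos_iff.2 R0
  obtain ⟨i, hi⟩ := pow_unbounded_of_one_lt (b / ‖lg R‖) (one_lt_two (α := ℝ))
  obtain ⟨i', hi'⟩ := pow_unbounded_of_one_lt (‖lg R‖ / b) (one_lt_two (α := ℝ))
  refine ⟨τ + i, fun n c z μ R' q e r => (rc_iff o (Zn.nsmul q c)).2 fun y => ?_⟩
  rw [← Cp.pr_eq (Ki.pr (hq h)) (ivP o) R ⟨z, q.mem⟩ e q, ← map_nsmul] at r
  obtain ⟨j, hj⟩ := ex_pow (lg R * μ)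
  obtain ⟨a, v, ha⟩ := ex_nat ⟨2 ^ i * lg y / lg R, by
    rw [norm_div, norm_mul, norm_pow, n2, inv_pow, div_le_one p, inv_mul_le_iff₀ (by positivity)]
    exact (b1 y).trans ((div_le_iff₀ p).1 hi.le)⟩ (n + (i' + j))
  have ha : lg (2 ^ i • y - a • R) = 2 ^ (n + (i' + j)) * v * lg R := by
    rw [map_sub, map_nsmul, map_nsmul, nsmul_eq_mul, nsmul_eq_mul]
    rw [show ((⟨_, _⟩ : ℤ_[2]) : K) = 2 ^ i * lg y / lg R from rfl, div_eq_iff R0] at ha
    push_cast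
    linear_combination ha
  obtain ⟨w, hw⟩ := b2 n (2 ^ i • y - a • R) (by
    have : ‖(v : K)‖ ≤ 1 := v.2
    have h1 : (2 : ℝ) ^ i' ≤ 2 ^ (i' + j) := pow_le_pow_right₀ one_le_two le_self_add
    rw [ha, norm_mul, norm_mul, norm_pow, n2, inv_pow, pow_add]
    calc _ = ‖(v : K)‖ * (‖lg R‖ / 2 ^ (i' + j)) := by field_simp
      _ ≤ 1 * b := by
        gcongr
        rw [div_le_iff₀ (by positivity), ← div_le_iff₀' b0]
        exact hi'.le.trans h1
      _ = b := one_mul b)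
  have e1 : 2 ^ (τ + i) • y = 2 ^ n • w + 2 ^ τ • a • R := by
    rw [← hw, ← smul_add, sub_add_cancel, pow_add, mul_smul]
  have e2 : lg (2 ^ (τ + i) • y) = 2 ^ τ * (2 ^ (n + (i' + j)) * v * lg R + a * lg R) := by
    rw [← ha, ← nsmul_eq_mul a, ← map_nsmul, ← map_add, sub_add_cancel, pow_add, mul_smul, map_nsmul,
      nsmul_eq_mul]
    push_cast
    rfl
  rw [e2]
  rw [e1, map_add, AddMonoidHom.add_apply, Cp.pr_pow _ _ _ _ (Zn.nsmul q c), zero_add,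
    map_nsmul, map_nsmul, AddMonoidHom.nsmul_apply, AddMonoidHom.nsmul_apply]
  erw [r]
  rw [← mq_nat, ← mq_nat, mq_eq]
  refine O_of (neg_mem (O_mul (O_mul (O_mul (O_pow τ) (O_pow i')) v.2) hj)) ?_
  rw [hn]
  push_cast
  field_simp
  ring

end

end Vale.Agent.P014T.Rx
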