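import Vale.Agent.P014T.Rx.One
import Vale.Agent.P014T.Kx.Tw
import Vale.Agent.P014T.Ew.Cmp

/-! # P014T, block Rx: the reciprocity law of a quadratic twist -/

set_option autoImplicit false
set_option linter.all false

open NumberField
open scoped Classical

noncomputable section

namespace Vale.Agent.P014T.Rx

open Vale.Agent.P022 (Qb GQ)
open Vale.Agent.P022D.W (dec)
open Vale.Agent.P022E.GW (Ov)
open Vale.Agent.P004S.Ga (K O mem_O)
open Vale.Agent.P004S.Aq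
open Vale.Agent.P004F (hq sd)
open Vale.Agent.P004F.Rc (hn hn_mul mq mq_eq mq_zero O_nat)
open Vale.Agent.P004M.TE (Pt ga pa Cv pa_some)
open Top (El Rc)
open Wm (Fx)
open Bt (dd)
open Cp (ivP Zn cp)
open Lc (Lk Lg zf nv)
open Ah (Ind am)
open Ki (wp)
open Kx.Tw (Tq tw rt rt_sq rt_ne ga_rt ga_tw tw_some)
open Vc (Ch vm vm_some)

variable {A B A' B' d : ℤ} {P : Ideal (𝓞 Qb)} {ι : Qb →+* ℂ_[2]} {m n : ℕ}

/-- two-adic multiples of a cocycle -/
theorem iv_mul (o : Ov 2 P) (u : ℤ_[2]) {z z' : GQ → GQ → K} {x : K}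
    (e : ∀ g ∈ dec P, ∀ j ∈ dec P, z' g j - u * z g j ∈ O)
    (t : ∀ g ∈ dec P, ∀ j ∈ dec P, 2 ^ n * z g j ∈ O) (v : Iv.iv P z = mq x) :
    Iv.iv P z' = mq (u * x) := by
  obtain ⟨j, hj⟩ := ex_pow x
  obtain ⟨a, b, k⟩ := ex_nat u (n + j)
  rw [(ivP o).congr (z' := a • z) fun g p i q => mq_eq.2 (O_of (add_mem (e g p i q)
    (O_mul (O_mul (O_pow j) b.2) (t g p i q))) (by
      simp only [Pi.smul_apply, nsmul_eq_mul]; rw [k]; ring)), map_nsmul, v, ← mq_nat, mq_eq]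
  exact O_of (neg_mem (O_mul (O_mul (O_pow n) b.2) hj)) (by rw [k]; ring)

/-- an isomorphism multiplies the pairing by a unit -/
theorem wp_iso (h : El A B) (h' : El A' B') (t : Pt A B ≃+ Pt A' B') : ∃ u : ℤ_[2]ˣ, ∀ n x y,
    2 ^ n • x = 0 → 2 ^ n • y = 0 → wp (hq h') n (t x) (t y) - (u : ℤ_[2]) * wp (hq h) n x y ∈ O := by
  have H := Ki.pr (hq h')
  have m : ∀ {n : ℕ} {x}, 2 ^ n • x = 0 → 2 ^ n • t x = 0 := fun e => by rw [← map_nsmul, e, map_zero]
  obtain ⟨u, e⟩ := Ew.cmp (hq h) (e := fun n x y => Ew.X (wp (hq h') n (t x) (t y)))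
    ⟨fun a b c => by
      rw [← map_add Ew.X, Ew.X_eq, ← mq_eq, map_add, map_add, H.addl (m a) (m b) (m c)],
    fun a b => by rw [← map_neg Ew.X, Ew.X_eq, ← mq_eq, map_neg, H.skew (m b) (m a)],
    fun a => by rw [Ki.wp_self, map_zero],
    fun a b => by rw [Ew.X_eq, ← mq_eq, map_nsmul, H.levl (m a) (m b)]⟩
    fun x a b => t.injective ((Ki.wp_nd (hq h') (m a) fun y c => by
      obtain ⟨y, rfl⟩ := t.surjective y
      exact Ew.X_zero.1 (b y (t.injective (by rw [map_nsmul, c, map_zero])))).trans (map_zero t).symm)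
  exact ⟨u, fun n x y a b => Ew.X_eq.1 (e n x y a b)⟩

section

variable (hι : Ind ι P) (d8 : d % 8 = 1)
include d8

theorem n_d : ‖(d : K)‖ = 1 := by
  rw [Padic.norm_intCast_eq_one_iff, Nat.cast_ofNat, Int.isCoprime_two_right, Int.odd_iff]
  omega

/-- the square root is two-adic -/
theorem ex_rt (ι : Qb →+* ℂ_[2]) : ∃ s : ℤ_[2]ˣ, am (s : ℤ_[2]) = ι (rt d) := by
  obtain ⟨w, e, -⟩ := Ah.sq_root (z := d) (by
    obtain ⟨k, e⟩ : ∃ k : ℤ, d = 8 * k + 1 := ⟨d / 8, by omega⟩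
    rw [e, show ((8 * k + 1 : ℤ) : K) - 1 = 2 ^ 3 * (k : ℤ) by push_cast; ring, norm_mul, norm_pow, n2]
    have := Padic.norm_int_le_one (p := 2) k
    nlinarith [norm_nonneg (k : K)])
  have n1 : ‖w‖ = 1 := (pow_eq_one_iff_of_nonneg (norm_nonneg _) two_ne_zero).1 (by
    rw [← norm_pow, e, n_d d8])
  have : am w ^ 2 = ι (rt d) ^ 2 := by rw [← map_pow, ← map_pow, e, rt_sq, map_intCast, map_intCast]
  rcases sq_eq_sq_iff_eq_or_eq_neg.1 this with k | k
  · exact ⟨PadicInt.mkUnits n1, k⟩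
  · exact ⟨-PadicInt.mkUnits n1, by
      rw [Units.val_neg, PadicInt.coe_neg, map_neg, neg_eq_iff_eq_neg]; exact k⟩

include hι

theorem sd_dec {g : GQ} (a : g ∈ dec P) : sd d g = 1 := by
  obtain ⟨s, e⟩ := ex_rt d8 ι
  have := hι.fx.2 ⟨_, e⟩ g a
  rw [ga_rt, mul_eq_right₀ (rt_ne (by omega))] at this
  exact_mod_cast this

variable (q : Tq d A B A' B')

theorem ga_dec {g : GQ} (a : g ∈ dec P) (y : Pt A B) : ga g (tw q y) = tw q (ga g y) := by
  rw [ga_tw, sd_dec hι d8 a, one_smul]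

theorem fx_tw {y : Pt A B} : tw q y ∈ Fx A' B' (dec P) ↔ y ∈ Fx A B (dec P) :=
  forall₂_congr fun g a => by rw [ga_dec hι d8 q a, (tw q).apply_eq_iff_eq]

theorem zn_tw {z : GQ → Pt A B} (k : Zn (dec P) n z) : Zn (dec P) n fun g => tw q (z g) :=
  ⟨k.lc.comp _, fun g a j b => by rw [k.co g a j b, map_add, ga_dec hι d8 q a],
    fun g a => by rw [← map_nsmul, k.tr g a, map_zero]⟩

/-- the logarithm of the twisted point -/
theorem lg_tw {lg : Fx A B (dec P) →+ K} {lg' : Fx A' B' (dec P) →+ K} (k : Lk ι lg) (k' : Lk ι lg')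
    {s : K} (e : am s = ι (rt d)) (y : Fx A B (dec P)) :
    lg y = s * lg' ⟨tw q y, (fx_tw hι d8 q).2 y.2⟩ := by
  obtain ⟨L, hL⟩ := Lc.ex_lgs A' B'
  have H : Ch ((Cv ℂ_[2] (A : ℚ) (B : ℚ)).map (RingHom.id _)) (Cv ℂ_[2] (A' : ℚ) (B' : ℚ))
      (ι (rt d)) 0 0 0 := by
    have := q.ch.map ι
    refine ⟨this.ne, by simp, by simp, by simp, ?_, ?_⟩
    · simpa using this.a4
    · simpa using this.a6
  have u1 : ‖ι (rt d)‖ = 1 := by
    obtain ⟨s, e⟩ := ex_rt d8 ι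
    rw [← e, Ah.nrm_am, PadicInt.padic_norm_e_of_padicInt, PadicInt.norm_units]
  have v : vm _ H (pa ι.toRatAlgHom y.1) = pa ι.toRatAlgHom (tw q y) := by
    rcases y with ⟨_ | ⟨a, b, n⟩, -⟩
    · change vm _ H (pa _ 0) = pa _ (tw q 0)
      simp only [map_zero]
    · obtain ⟨n', j⟩ := tw_some q n
      have := congrArg ι (rt_sq d)
      rw [map_pow, map_intCast] at this
      rw [j, pa_some, pa_some, vm_some]
      congr 1
      · simp [← this]
      · simp only [RingHom.id_apply, mul_zero, zero_mul, add_zero, map_mul, map_intCast, ← this]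
        rw [pow_succ]
        rfl
  refine am.injective ?_
  rw [map_mul, k' L hL, e, ← v]
  refine k ((AddMonoidHom.mulLeft (ι (rt d))).comp (L.comp (vm _ H))) ?_ y
  rintro (_ | ⟨a, b, n⟩) i j
  · change _ * ‖_ * L (vm _ H 0) - 0‖ ≤ _
    simp
  have z : zf (vm _ H (.some a b n)) = zf (.some a b n) / ι (rt d) := by
    have := H.ne
    change -(_ * a + 0) / (_ * b + _ * 0 * a + 0) = -a / b / _
    by_cases k : b = 0
    · simp [k]
    · simp only [mul_zero, zero_mul, add_zero]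
      field_simp
  have := hL (vm _ H (.some a b n)) (not_le.2 (by
      change 1 < ‖_ * a + 0‖
      rw [add_zero, norm_mul, norm_pow, u1, one_pow, one_mul]
      exact not_le.1 i)) (by rwa [z, norm_div, u1, div_one])
  rw [z, norm_div, u1, div_one] at this
  refine le_of_eq_of_le ?_ this
  have := H.ne
  rw [← one_mul ‖L _ - _‖, ← u1, ← norm_mul (ι _), mul_sub, mul_div_cancel₀ _ this]
  rfl

/-- **the law of the twist** -/
theorem rc_tw (h : El A B) (h' : El A' B') {lg : Fx A B (dec P) →+ K} {lg' : Fx A' B' (dec P) →+ K}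
    (k : Lk ι lg) (k' : Lk ι lg') : ∃ u s : ℤ_[2]ˣ, am (s : ℤ_[2]) = ι (rt d) ∧
    ∀ (m n : ℕ) z μ, Zn (dec P) n z → Rc h P lg m n z μ →
      Rc h' P lg' m n (fun g => tw q (z g)) ((u * s : ℤ_[2]) * μ) := by
  obtain ⟨u, hu⟩ := wp_iso h h' (tw q)
  obtain ⟨s, e⟩ := ex_rt d8 ι
  refine ⟨u, s, e, fun m n z μ zn r ⟨y, f⟩ y' a => ?_⟩
  obtain ⟨y, rfl⟩ := (tw q).surjective y
  obtain ⟨y', rfl⟩ := (tw q).surjective y'
  have f' := (fx_tw hι d8 q).1 f
  have a' : 2 ^ n • y' = 2 ^ m • y := (tw q).injective (by rw [map_nsmul, map_nsmul, a])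
  have zd := Cp.zn_dd (a' ▸ nsmul_mem f' (2 ^ m))
  rw [iv_mul hι.ov u (n := n) (fun g b j c => by
      simp only [cp, Bt.dd_apply, ga_dec hι d8 q b, ← map_sub]
      exact hu n _ _ (zd.tr g b) (Ki.tor_map (zn.tr j c) g))
    (fun g _ j _ => Ki.wp_lev _ _ _ _) (r ⟨y, f'⟩ y' a'), map_nsmul, map_nsmul,
    lg_tw hι d8 q k k' e]
  congr 1
  simp only [nsmul_eq_mul, PadicInt.coe_mul]
  ring

end

end Vale.Agent.P014T.Rx
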